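import Vale.Agent.P275TG.Gyp
import Vale.Agent.P275XI.Kap

/-!
# P275, divisors which are zero sets of sections: the restriction has weight two
-/

open scoped Manifold ContDiff Topology
open Set Function Filter Topology CategoryTheory
open Vale.Agent.P272.K Vale.Agent.P281Z.Hg Vale.Agent.P275MC Vale.Agent.P275FM Vale.Agent.P275AR
  Vale.Agent.P275XI Vale.Agent.P275B Vale.Agent.P275TB
open P275S (H Hd c1 c1_mem)
open P275CC (LB inc Nc)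

set_option linter.unusedSectionVars false

noncomputable section

namespace Vale.Agent.P275TG

variable {D D' E E' : ℕ}

theorem nc (T : Mn D) : Nc T.X := @P275S.nc_of_nice (TopCat.of T.X) (nice (d := D))

/-- a projective bundle with a section -/
theorem pb_sec {Z : Mn E} {P : Mn E'} {ρ : P.X → Z.X} {σ : Z.X → P.X} {hρ : Smo E' E ρ}
    (hσ : Smo E E' σ) (e : ∀ z, ρ (σ z) = z) (a : Act (univ : Set Z.X) univ (pb hρ)) {r : ℕ}
    (hE : E' = E + r) {ξ : HH P.X} (hξ : ξ ∈ Hd ℂ (TopCat.of P.X) 2)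
    (sp : ∀ b, ∃ x : ℕ → HH Z.X, b = ∑ i ∈ Finset.range (r + 1), P275S.pb (tm hρ) (x i) * ξ ^ i) :
    Pb (P275S.pb (tm hρ)) (gys a) ξ r := by
  have a2 := act_univ hσ (LeftInverse.isClosedEmbedding e hρ.cont hσ.cont).isProperMap
  have hid : Smo E E fun z => ρ (σ z) := (funext e).symm ▸ P281Z.Hg.Pb1H.smo_id
  have a3 := act_univ hid ((funext e).symm ▸ isProperMap_id)
  exact ⟨gys_mul a, ce_even E' hξ even_two, sp, fun i hi => P275S.eq_zero_of_neg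
    (n := 2 * i - 2 * r) (by omega) (gys_mem a (P275S.pow_mem_Hd hξ i) (by omega)),
    ce_even E (n := 0) (gys_mem a (P275S.pow_mem_Hd hξ r) (by omega)) Even.zero, gys a2 1,
    (gys_comp a2 a a3 1).symm.trans (gys_id a3 e 1)⟩

/-- classes of degree zero on a projective bundle -/
theorem Pb_zero {X Y : TopCat.{0}} {p : Y ⟶ X} {g} {ξ : H ℂ Y} {r : ℕ}
    (h : Pb (P275S.pb p) g ξ r) (hξ : ξ ∈ Hd ℂ Y 2) {l : H ℂ Y} (hl : l ∈ Hd ℂ Y 0) :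
    ∃ x ∈ Hd ℂ X 0, l = P275S.pb p x := by
  obtain ⟨x, hx⟩ := h.span l
  refine ⟨_, P275S.KG.pr_mem_deg 0 (x 0), ?_⟩
  rw [← P275S.KG.pr_of_mem hl, hx, Finset.sum_range_succ', pow_zero, mul_one]
  refine (map_add _ _ _).trans ?_
  rw [P275S.pb_pr, add_eq_right]
  exact (map_sum _ _ _).trans (Finset.sum_eq_zero fun i _ => by
    rw [pow_succ, ← mul_assoc, pr_mul hξ])

/-- **GY** on manifolds -/
theorem gy_gen {Y : Mn D} {Z : Mn E} {P : Mn E'} {X : Mn D'} {s : Y.X → X.X} {e : P.X → X.X}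
    {ρ : P.X → Z.X} {hs : Smo D D' s} {he : Smo E' D' e} {hρ : Smo E' E ρ} (q : C(X.X, Y.X))
    (i : C(Z.X, Y.X)) (cs : IsClosedEmbedding s) (ce : IsClosedEmbedding e)
    (as : Act (univ : Set X.X) univ (pb hs)) (ae : Act (univ : Set X.X) univ (pb he))
    (aρ : Act (univ : Set Z.X) univ (pb hρ)) (d1 : D' = D + 1) (d2 : D' = E' + 1)
    (qs : ∀ y, q (s y) = y) (qe : ∀ z, q (e z) = i (ρ z)) {ξ : HH X.X}
    (hξ : ξ ∈ Hd ℂ (TopCat.of X.X) 2) (v1 : pbc (inc (range s)ᶜ) ξ = 0)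
    (v2 : pbc (inc (range e)ᶜ) ξ = 0)
    (hE : Pb (P275S.pb (tm hρ)) (gys aρ) (P275S.pb (tm he) ξ) 1) {w z t v} (hw : IsGr w)
    (hz : IsGr z) (ht : IsGr t) (hv : IsGr v) (g1 : Grd w v 0 (gys as)) (g2 : Grd t v 0 (gys ae))
    (g3 : Grd z t 2 (P275S.pb (tm hρ)).toLinearMap)
    (g5 : ∀ a ∈ Hd ℂ (TopCat.of Y.X) 0, MG w 0 a) (g6 : ∀ a ∈ Hd ℂ (TopCat.of Z.X) 0, MG z 0 a) :
    Grd w z (-2) (pbc i).toLinearMap := by
  obtain ⟨m, m0, m1⟩ := ex_gys cs as d1 hξ v1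
  obtain ⟨l, l0, l1⟩ := ex_gys ce ae d2 hξ v2
  obtain ⟨x, x0, l2⟩ := Pb_zero hE (P275S.pb_mem _ hξ) l0
  refine gy (q := pbc q) (ρg := gys aρ) (gys_mul as) (gys_mul ae) (fun a => ?_) (fun a => ?_)
    (m1 ▸ hE) (m1.symm.trans (l1.trans (congrArg _ l2))) (pb_gys ce ae) (ce_even D m0 Even.zero)
    (ce_even E x0 Even.zero) hw hz ht hv g1 g2 g3 (g5 _ m0) (g6 _ x0)
  · rw [P275S.pb_comp, show tm hs ≫ TopCat.ofHom q = 𝟙 _ from TopCat.ext qs, P275S.pb_id]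
  · rw [P275S.pb_comp, P275S.pb_comp,
      show tm he ≫ TopCat.ofHom q = tm hρ ≫ TopCat.ofHom i from TopCat.ext qe]

variable (W : WF) {b d d₁ d₂ d₃ : ℕ} {B : Mn b} {c : Cv B} {M : Vr d} {Z : Vr d₁} {Q : Vr d₂}
  {V : Vr d₃}

/-- **GY** on flat bundles -/
theorem gy_fl {F : Fl c M D} {G : Fl c Z E} {P : Fl c Q E'} {X : Fl c V D'}
    (hc : ∀ i, IsPreconnected (c.V i)) {s₀ s e₀ e ρ₀ ρ} (hs : Hm0 F X s₀ s) (he : Hm0 P X e₀ e)
    (hρ : Hm0 P G ρ₀ ρ) (cs : ∀ a, IsClosedEmbedding (s₀ a)) (ce : ∀ a, IsClosedEmbedding (e₀ a))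
    (pρ : ∀ a, IsProperMap (ρ₀ a)) {σ : G.T.X → P.T.X} (hσ : Smo E E' σ) (ρσ : ∀ z, ρ (σ z) = z)
    (q : C(X.T.X, F.T.X)) (i : C(G.T.X, F.T.X)) (qs : ∀ y, q (s y) = y)
    (qe : ∀ z, q (e z) = i (ρ z)) (d1 : D' = D + 1) (d2 : D' = E' + 1) (d3 : E' = E + 1)
    (L : LB X.T.X) {f₁ f₂ : L.ι → X.T.X → Fin 1 → ℂ} (v1 : Sys L (range s)ᶜ f₁)
    (v2 : Sys L (range e)ᶜ f₂) (fib : ∀ y, ∃ f : L.ι → P.T.X → Fin 2 → ℂ,
      Sys (L.pb ⟨e, he.hol.cont⟩) (ρ ⁻¹' {y}) f ∧ Bij (L.pb ⟨e, he.hol.cont⟩) (ρ ⁻¹' {y}) f)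
    (g3 : Grd (wH W G) (wH W P) 2 (P275S.pb (tm hρ.smo)).toLinearMap) :
    Grd (wH W F) (wH W G) (-2) (pbc i).toLinearMap := by
  have n1 := nc G.T
  have n2 := nc P.T
  have p1 := hρ.proper isProperMap_id pρ
  have cs' := hs.cemb .id cs
  have ce' := he.cemb .id ce
  have as := act_univ hs.smo cs'.isProperMap
  have ae := act_univ he.smo ce'.isProperMap
  have aρ := act_univ hρ.smo p1
  have hξ := c1_mem (X := TopCat.of X.T.X) L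
  exact gy_gen q i cs' ce' as ae aρ d1 d2 qs qe hξ v1.vn v2.vn (pb_sec hσ ρσ aρ d3
    (P275S.pb_mem _ hξ) fun b => cc_pb ⟨e, he.hol.cont⟩ L ▸ span_of ⟨ρ, hρ.hol.cont⟩ p1 _ fib b)
    (gr_wH W F) (gr_wH W G) (gr_wH W P) (gr_wH W X)
    (grd_gys W hs isProperMap_id (fun a => (cs a).isProperMap) as)
    (grd_gys W he isProperMap_id (fun a => (ce a).isProperMap) ae) g3
    (fun _ => mg_zero W F hc) fun _ => mg_zero W G hc

end Vale.Agent.P275TG
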