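import Vale.Agent.P275MK.Fl
import Vale.Agent.P275RG.Proj
import Vale.Agent.P275GQ.Prj
import Vale.Agent.P275CC.Defs

/-!
# P275, principal divisors: the blow-up of `M × A¹` along `{f = 0} × 0`
-/

open scoped Manifold ContDiff Topology
open Set Filter Function Topology
open Vale.Agent.P272.K (Cm Chart At)
open Vale.Agent.P277Z (Hol hol_const at_chart)
open Vale.Agent.P277Z.Slc (Ind dd dd_mul dd_sub_const)
open Vale.Agent.P281Z Vale.Agent.P275RG Vale.Agent.P275B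
open Vale.Agent.P275GQ (hyp rat hyp_pt rat_pt pt_rat hol_rat an_hyp)
open P275CC (LB PFib)

set_option linter.unusedSectionVars false

noncomputable section

namespace Vale.Agent.P275TG

section taut

variable {N : ℕ} (S : PS N)

instance : SecondCountableTopology S.P.X := ChartedSpace.secondCountable_of_sigmaCompact (Cm N) _

/-- the projective space -/
abbrev Pv : Vr N := { X := S.P.X, cp := cP S }

/-- the affine space -/
abbrev Av (N : ℕ) : Vr N := { X := Cm N, cp := cA N }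

theorem cont_rat (l k : Fin (N + 1)) : ContinuousOn (fun p => rat S l p k) (hyp S l)ᶜ :=
  fun p hp => (AnV.cont (F := fun p => rat S l p k) (x := p) (hol_rat hp k)).continuousWithinAt

/-- the tautological bundle -/
def tau : LB S.P.X where
  ι := Fin (N + 1)
  U a := (hyp S a)ᶜ
  op a := (an_hyp a).closed.isOpen_compl
  cov p := by
    obtain ⟨v, hv, rfl⟩ := S.surj p
    exact (ne_iff.1 hv).imp fun a ha => mt (hyp_pt hv).1 ha
  g a b p := rat S b p a
  ct a b := (cont_rat S b a).mono inter_subset_right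
  id a p hp := by
    obtain ⟨v, hv, rfl⟩ := S.surj p
    rw [rat_pt hv, div_self (mt (hyp_pt hv).2 hp)]
  cc a b l p _ hb _ := by
    obtain ⟨v, hv, rfl⟩ := S.surj p
    rw [rat_pt hv, rat_pt hv, rat_pt hv, div_mul_div_cancel₀ (mt (hyp_pt hv).2 hb)]

theorem cont_pt : ContinuousOn S.pt {0}ᶜ := fun v hv => (S.cont v hv).continuousWithinAt

theorem tau_chg {v : Cm (N + 1)} (hv : v ≠ 0) (a b : Fin (N + 1)) (hb : S.pt v ∉ hyp S b) :
    v a = rat S b (S.pt v) a * v b := by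
  rw [rat_pt hv, div_mul_cancel₀ _ (mt (hyp_pt hv).2 hb)]

/-- the fibres of a product -/
theorem pfib {X : Type} [TopologicalSpace X] (x : X) :
    PFib ((tau S).pb ⟨Prod.snd, continuous_snd⟩) ((Prod.fst : X × S.P.X → X) ⁻¹' {x}) N 1 :=
  ⟨fun v => (x, S.pt v), fun a v => v a, continuousOn_const.prodMk (cont_pt S),
    Set.ext fun z => ⟨fun ⟨_, _, e⟩ => e ▸ rfl, fun h =>
      let ⟨v, hv, e⟩ := S.surj z.2
      ⟨v, hv, Prod.ext (Eq.symm h) e⟩⟩,
    fun _ _ hv hw => Prod.mk_right_inj.trans (S.pt_eq_iff hv hw),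
    fun a => (continuous_apply a).continuousOn, fun _ _ hv h => mt (hyp_pt hv).2 h,
    fun _ _ _ _ _ _ => by rw [pow_one]; rfl, fun a b _ hv _ hb => tau_chg S hv a b hb⟩

/-- maps which lift to the vector space -/
theorem tau_triv {X : Type} [TopologicalSpace X] (κ : C(X, S.P.X)) {σ : X → Cm (N + 1)}
    (hσ : Continuous σ) (h0 : ∀ x, σ x ≠ 0) (e : ∀ x, S.pt (σ x) = κ x) :
    LB.Triv ((tau S).pb κ) :=
  ⟨fun a x => σ x a, ⟨fun a => ((continuous_apply a).comp hσ).continuousOn,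
    fun a b x _ hb _ => (tau_chg S (h0 x) a b ((e x).symm ▸ hb)).trans (by rw [e x]; rfl)⟩,
    fun a x h => mt (hyp_pt (S := S) (h0 x)).2 ((e x).symm ▸ (h : κ x ∉ hyp S a))⟩

end taut

variable (S : PS 1)

/-- `(b, a)` lies on the line `p` -/
def On (p : S.P.X) (a b : ℂ) : Prop := ∀ v ≠ 0, S.pt v = p → a * v 0 = b * v 1

variable {S}

theorem on_pt {v : Cm 2} (hv : v ≠ 0) {a b : ℂ} : On S (S.pt v) a b ↔ a * v 0 = b * v 1 := by
  refine ⟨fun h => h v hv rfl, fun h w hw e => ?_⟩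
  obtain ⟨c, rfl⟩ := (S.pt_eq_iff hw hv).1 e
  simp only [Pi.smul_apply, smul_eq_mul]
  linear_combination c * h

theorem on_x {p : S.P.X} {h : S.H.ι} (hp : p ∈ S.H.U h) {a b : ℂ} :
    On S p a b ↔ a * S.x h p 0 = b * S.x h p 1 := by
  rw [← on_pt (S := S) (S.xnz h p hp), S.pt_x' hp]

theorem on_zero (p : S.P.X) : On S p 0 0 := fun _ _ _ => by rw [zero_mul, zero_mul]

theorem e0_ne : (![1, 0] : Cm 2) ≠ 0 := ne_iff.2 ⟨0, one_ne_zero⟩

theorem on_e0 (b : ℂ) : On S (S.pt ![1, 0]) 0 b := (on_pt e0_ne).2 (by simp)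

theorem on_hyp {p : S.P.X} {a b : ℂ} (h : On S p a b) (hp : p ∈ hyp S 1) :
    a = 0 ∧ S.pt ![1, 0] = p := by
  obtain ⟨v, hv, rfl⟩ := S.surj p
  have h1 := (hyp_pt hv).1 hp
  have h0 : v 0 ≠ 0 := fun e => hv (funext (Fin.forall_fin_two.2 ⟨e, h1⟩))
  refine ⟨by simpa [h1, h0] using (on_pt hv).1 h, (S.pt_eq_iff' e0_ne hv).2 ?_⟩
  simp [Fin.forall_fin_two, h1]

theorem on_ne {p : S.P.X} {a b : ℂ} (h : On S p a b) (h0 : (![b, a] : Cm 2) ≠ 0) :
    S.pt ![b, a] = p := by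
  obtain ⟨v, hv, rfl⟩ := S.surj p
  have h1 := (on_pt hv).1 h
  refine (S.pt_eq_iff' h0 hv).2 ?_
  simp [Fin.forall_fin_two, h1]

variable {n : ℕ} {U : Type} [TopologicalSpace U] [ChartedSpace (Cm n) U]
  [IsManifold 𝓘(ℂ, Cm n) ω U]

theorem zc_on {c : Cp n U} {φ : U → S.P.X} (h : Alg c (cP S) φ) {s t : U → ℂ} (hs : Reg c s)
    (ht : Reg c t) : Zc c {x | On S (φ x) (s x) (t x)} := by
  obtain ⟨c₁, p, F, h2, h3⟩ := h.ext
  refine Zc.pre (c' := c₁) (Z := {x | On S (φ x) (s x) (t x)}) (.of_loc fun y => ?_) h2.alg.symm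
  obtain ⟨g, hg⟩ := S.lb.cover (F y)
  obtain ⟨a, b, k1, k2, k3⟩ := (hs.ext h2).mer y
  obtain ⟨a', b', l1, l2, l3⟩ := (ht.ext h2).mer y
  refine ⟨Unit, inferInstance, fun _ z => a z * b' z * S.x g (F z) 0 - a' z * b z * S.x g (F z) 1,
    fun _ => ((k1.mul l2).mul (h3.hol.hol (S.xhol hg 0))).sub
      ((l1.mul k2).mul (h3.hol.hol (S.xhol hg 1))), ?_⟩
  filter_upwards [k3, l3, h3.hol.cont.continuousAt.eventually ((S.lb.isOpen g).eventually_mem hg)]
    with z m1 m2 m3 x hx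
  have e : F z = φ x := hx ▸ h3.eq x
  rw [e] at m3 ⊢
  rw [on_x m3, forall_const, ← (m1 x hx).2, ← (m2 x hx).2, ← sub_eq_zero,
    ← mul_eq_zero_iff_left (mul_ne_zero (m1 x hx).1 (m2 x hx).1)]
  exact Eq.congr_left (by ring)

theorem ind_aff {a : U → ℂ} {x : U} (h : Ind n (fun _ : Fin 1 => a) x) {c : ℂ} (hc : c ≠ 0)
    (k : ℂ) : Ind n (fun (_ : Fin 1) y => a y * c - k) x := by
  refine ⟨fun _ => ((h.1 0).mul (hol_const c x)).sub (hol_const k x), fun e he => ?_⟩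
  have h1 := h.2 e he
  rw [linearIndependent_unique_iff] at h1 ⊢
  rw [dd_sub_const, dd, fderiv_mul_const (h.1 0 e he).differentiableAt]
  exact smul_ne_zero hc h1

theorem ind_sbm {a : U → ℂ} {x : U} (ha : Hol n a x) (h : Sbm n 1 (fun y (_ : Fin 1) => a y) x) :
    Ind n (fun _ : Fin 1 => a) x :=
  (sbm_iff_ind (holA_iff.2 fun _ => ha) (at_chart _)).1 h

variable (S) {M : Vr n} (f : M.X → ℂ)

/-- the ambient variety -/
abbrev Nv (M : Vr n) : Vr (n + 1 + 1) := (M.prod (Av 1)).prod (Pv S)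

/-- the blow-up as a set -/
def Wz {X : Type} (f : X → ℂ) : Set ((X × Cm 1) × S.P.X) := {x | On S x.2 (x.1.2 0) (f x.1.1)}

variable {f}

theorem alg_m : Alg (Nv S M).cp M.cp fun z => z.1.1 := Alg.fst.comp .fst

theorem alg_t : Alg (Nv S M).cp (cA 1) fun z => z.1.2 := Alg.snd.comp .fst

theorem alg_p : Alg (Nv S M).cp (cP S) fun z => z.2 := .snd

theorem zc_Wz (hf : Reg M.cp f) : Zc (Nv S M).cp (Wz S f) :=
  zc_on (alg_p S) ((reg_crd 0).comp (alg_t S)) (hf.comp (alg_m S))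

theorem subM_Wz (hf : ∀ x, Hol n f x) (hs : ∀ x, f x = 0 → Sbm n 1 (fun y (_ : Fin 1) => f y) x) :
    SubM (n + 1 + 1) (n + 1) (Wz S f : Set (Nv S M).X) := by
  intro x hx
  obtain ⟨h, hp⟩ := S.lb.cover x.2
  have h1 : ∀ _ : Fin 1, Hol (n + 1 + 1) (fun z : (Nv S M).X =>
      z.1.2 0 * S.x h z.2 0 - f z.1.1 * S.x h z.2 1) x := fun _ =>
    (((alg_t S).hol.hol (hol_crd 0 _)).mul ((alg_p S).hol.hol (S.xhol hp 0))).sub
      (((alg_m S).hol.hol (hf _)).mul ((alg_p S).hol.hol (S.xhol hp 1)))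
  refine ⟨1, fun _ z => z.1.2 0 * S.x h z.2 0 - f z.1.1 * S.x h z.2 1, rfl, ?_, ?_⟩
  · by_cases h0 : S.x h x.2 0 = 0
    · have h2 : S.x h x.2 1 ≠ 0 := fun e => S.xnz h _ hp (funext (Fin.forall_fin_two.2 ⟨h0, e⟩))
      have h3 : f x.1.1 = 0 := by simpa [h0, h2] using (on_x hp).1 hx
      have h4 : Alg M.cp (Nv S M).cp fun y => ((y, x.1.2), x.2) :=
        ((Alg.id _).pair (.const _ _ _)).pair (.const _ _ _)
      refine ind_of_comp (x := x.1.1) (h4.hol.at _) h1 ?_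
      simpa only [h0, mul_zero, zero_sub, sub_zero, mul_neg] using
        ind_aff (ind_sbm (hf _) (hs _ h3)) (neg_ne_zero.2 h2) 0
    · have h4 : Alg (cA 1) (Nv S M).cp fun t => ((x.1.1, t), x.2) :=
        ((Alg.const _ _ _).pair (.id _)).pair (.const _ _ _)
      exact ind_of_comp (x := x.1.2) (h4.hol.at _) h1
        (ind_aff (U := Cm 1) (x := x.1.2) (ind_sbm (hol_crd 0 _) ((sbm_id _).cng (.of_forall
          fun y => funext fun i => by rw [Subsingleton.elim i 0]))) h0 (f x.1.1 * S.x h x.2 1))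
  · filter_upwards [(alg_p S).cont.continuousAt.eventually ((S.lb.isOpen h).eventually_mem hp)]
      with z hz
    exact (on_x hz).trans (sub_eq_zero.symm.trans (forall_const _).symm)

/-- the blow-up as a variety -/
theorem ex_W (hf : Reg M.cp f) (hs : ∀ x, f x = 0 → Sbm n 1 (fun y (_ : Fin 1) => f y) x) :
    ∃ (W : Vr (n + 1)) (w : W.X → (Nv S M).X), Alg W.cp (Nv S M).cp w ∧ IsEmbedding w ∧
      (∀ y, Imm (n + 1) (n + 1 + 1) w y) ∧ range w = Wz S f := by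
  obtain ⟨_, _, h⟩ := sub_cs (subM_Wz S hf.hol hs)
  obtain ⟨c, _, h1, -⟩ := (Nv S M).cp.closed (zc_Wz S hf) h IsInducing.subtypeVal
  exact ⟨{ X := (Wz S f : Set (Nv S M).X), cp := c }, Subtype.val, h1.alg, .subtypeVal, h.imm, h.rng⟩

end Vale.Agent.P275TG
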