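import Vale.Agent.P275TG.Geo
import Vale.Agent.P275TB.Wh
import Vale.Agent.P275MC.Ex
import Vale.Agent.P275XI.Abs
import Vale.Agent.P275S.Th

/-!
# P275, principal divisors: the restriction has weight two
-/

open scoped Manifold ContDiff Topology
open Set Function Filter Topology CategoryTheory
open Vale.Agent.P272.K Vale.Agent.P281Z.Hg Vale.Agent.P275MC Vale.Agent.P275FM Vale.Agent.P275AR
  Vale.Agent.P275XI Vale.Agent.P275B Vale.Agent.P275TB
open Vale.Agent.P281Z (HolM HolA Mf Imm Sbm PS holM_id holM_const AnV)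
open Vale.Agent.P275RG
open Vale.Agent.P275GQ (hyp rat hyp_pt pt_rat)
open P275S (H Hd c1 c1_mem c1_pb c1_triv)

set_option linter.unusedSectionVars false

noncomputable section

namespace Vale.Agent.P275TG

section man

variable {d d' : ℕ} {M N : Type} [TopologicalSpace M] [ChartedSpace (Cm d) M]
  [IsManifold 𝓘(ℂ, Cm d) ω M] [T2Space M] [TopologicalSpace N] [ChartedSpace (Cm d') N]
  [IsManifold 𝓘(ℂ, Cm d') ω N] [T2Space N] {f : M → N} {m n : ℤ}

theorem del_top {y : SF d M} (hy : y ∈ Dg d M (d + d : ℕ)) : del d M y = 0 := by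
  have h := gl_del (fun q => if q = d + d + 1 then 1 else 0) y
  rw [gl_congr (c' := fun _ => 0) fun q hq => if_neg (by omega), gl_const, zero_smul] at h
  simp only [add_left_inj] at h
  rw [← pj_eq', pj_eq hy] at h
  exact h.symm

variable [SecondCountableTopology M] [SecondCountableTopology N] {hf : Smo d d' f}

theorem pr_gys (h : Act (univ : Set N) univ (pb hf)) (e : m + 2 * d' = n + 2 * d)
    (α : H ℂ (TopCat.of M)) : P275S.KG.pr n (gys h α) = gys h (P275S.KG.pr m α) :=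
  H_ext (d := d') fun x => by
    rw [pd_pr (add_sub_cancel n _), pd_gys, pd_gys, ← prH_pb, pd_pr (m := m) (n := (d' + d' : ℕ) - n) (by omega)]

/-- a class of degree two which vanishes off a closed hypersurface -/
theorem ex_gys (he : IsClosedEmbedding f) (h : Act (univ : Set N) univ (pb hf)) (e : d' = d + 1)
    {ξ : H ℂ (TopCat.of N)} (hξ : ξ ∈ Hd ℂ (TopCat.of N) 2)
    (h0 : P275S.pb (X' := TopCat.of ((range f)ᶜ : Set N))
      (TopCat.ofHom ⟨Subtype.val, continuous_subtype_val⟩) ξ = 0) :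
    ∃ μ ∈ Hd ℂ (TopCat.of M) 0, ξ = gys h μ := by
  let O : TopologicalSpace.Opens N := ⟨(range f)ᶜ, he.isClosed_range.isOpen_compl⟩
  obtain ⟨β, hβ⟩ := (gex_M hf he (oe_val O) Subtype.range_coe (ori_val O) h ξ).1 h0
  exact ⟨_, P275S.KG.pr_mem_deg 0 β, by
    rw [← pr_gys (n := 2) h (by omega), ← hβ, P275S.KG.pr_of_mem hξ]⟩

end man

theorem pr_mul {X : TopCat.{0}} {ξ : H ℂ X} (hξ : ξ ∈ Hd ℂ X 2) (y : H ℂ X) :
    P275S.KG.pr 0 (y * ξ) = 0 := by
  refine P275S.KG.ind_deg (P := fun y : H ℂ X => P275S.KG.pr 0 (y * ξ) = 0)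
    (by rw [zero_mul, map_zero]) (fun n y hy => ?_)
    (fun x y hx hy => by rw [add_mul, map_add, hx, hy, add_zero]) y
  by_cases h : n + 2 = 0
  · rw [P275S.eq_zero_of_neg (by omega) hy, zero_mul, map_zero]
  · exact P275S.KG.pr_of_ne (P275S.mul_mem_Hd rfl hy hξ) h

theorem pb_tau {N : ℕ} (S : PS N) {X Y : Type} [TopologicalSpace X] [TopologicalSpace Y]
    (j : C(Y, X)) (κ : C(X, S.P.X)) {σ : Y → Cm (N + 1)} (hσ : Continuous σ) (h0 : ∀ x, σ x ≠ 0)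
    (e : ∀ x, S.pt (σ x) = κ (j x)) : P275S.pb (TopCat.ofHom j)
      (P275S.pb (TopCat.ofHom κ) (c1 (X := TopCat.of S.P.X) (tau S))) = 0 := by
  rw [P275S.pb_comp, ← c1_pb]
  exact c1_triv (tau_triv S (κ.comp j) hσ h0 e)

variable (W : WF) {b d d' d'' D D' D'' : ℕ} {B : Mn b} {c : Cv B} {M : Vr d} {M' : Vr d'}
  {M'' : Vr d''} {F : Fl c M D} {F' : Fl c M' D'} {F'' : Fl c M'' D''}

theorem cemb_mk {X Y : Type} [TopologicalSpace X] [TopologicalSpace Y] [T2Space X] [T2Space Y]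
    (y : Y) : IsClosedEmbedding fun x : X => (x, y) :=
  LeftInverse.isClosedEmbedding (f := Prod.fst) (fun _ => rfl) continuous_fst (by fun_prop)

/-- maps into a sub-bundle -/
theorem hm_lift {w j g t} (h : Hm0 F' F (fun _ => w) j) (hw : IsEmbedding w)
    (hi : ∀ y, Imm d' d w y) (h' : Hm0 F'' F (fun _ => g) t) (hr : range g ⊆ range w)
    (hg : IsClosedEmbedding g) : ∃ g' t', Hm0 F'' F' (fun _ => g') t' ∧ IsClosedEmbedding g' ∧
      ∀ x, j (t' x) = t x := by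
  choose g' hg' using fun y => hr (mem_range_self y)
  choose t' ht' using fun x => h.mem_range.2 (let ⟨i, hi⟩ := c.cov (F''.q x)
    ⟨i, _, hi, (h'.qt x).symm, (h'.φt i x hi).symm ▸ hr (mem_range_self _)⟩ :
      ∃ i, ∃ y ∈ c.V i, id y = F.q (t x) ∧ F.φ i (t x) ∈ range w)
  have e : (fun y => w (g' y)) = g := funext hg'
  have k : ∀ x, F'.q (t' x) = F''.q x := fun x =>
    (h.qt _).symm.trans ((congrArg F.q (ht' x)).trans (h'.qt x))
  exact ⟨g', t', ⟨holM_id, fun _ _ h => h, fun i => (h.alg i).lift hw.isInducing hi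
    (e.symm ▸ h'.alg i), k, fun i x hx => hw.injective ((h.φt i _ ((k x).symm ▸ hx)).symm.trans
      (by rw [ht', hg']; exact h'.φt i x hx))⟩, .of_comp hw (e.symm ▸ hg :), ht'⟩

/-- the blow-up as a flat bundle -/
theorem ex_FW (S : PS 1) (F : Fl c M D) {f₀ : M.X → ℂ} {f} (hf₀ : Reg M.cp f₀)
    (hf : F.Inv (fun _ => f₀) f) (hs : ∀ m, f₀ m = 0 → Sbm d 1 (fun m (_ : Fin 1) => f₀ m) m) :
    ∃ (V : Vr (d + 1)) (w : V.X → (Nv S M).X) (FW : Fl c V (b + (d + 1))) (j : _),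
      Hm0 FW ((F.prodV (Av 1)).prodV (Pv S)) (fun _ => w) j ∧ IsEmbedding w ∧
      (∀ y, Imm (d + 1) (d + 1 + 1) w y) ∧ range w = Wz S f₀ ∧ ∀ x, j x ∈ Wz S f := by
  obtain ⟨V, w, w1, w2, w3, w4⟩ := ex_W S hf₀ hs
  have k1 : ∀ a a', (c.V a ∩ c.V a').Nonempty → ∀ m, f₀ (F.tr a a' m) = f₀ m := by
    rintro a a' ⟨x, h1, h2⟩ m
    have q : F.q (F.ψ a' (x, m)) = x := F.qψ a' (x, m) h2
    have k := F.φtr a a' _ (q.symm ▸ h1) (q.symm ▸ h2)
    have l := (hf a _ (q.symm ▸ h1)).symm.trans (hf a' _ (q.symm ▸ h2))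
    rwa [k, F.φψ a' (x, m) h2] at l
  have k2 : ∀ a a' y, ∃ y', (c.V a ∩ c.V a').Nonempty →
      w y' = ((F.prodV (Av 1)).prodV (Pv S)).tr a a' (w y) := fun a a' y => by
    by_cases k : (c.V a ∩ c.V a').Nonempty
    · refine (w4.ge ?_).imp fun _ e _ => e
      change On S _ _ (f₀ (F.tr a a' (w y).1.1))
      exact (k1 a a' k _).symm ▸ w4.le (mem_range_self y)
    · exact ⟨y, fun k' => (k k').elim⟩
  choose t ht using k2
  refine ⟨V, w, _, _, Fl.hm_sub ((F.prodV (Av 1)).prodV (Pv S)) (he := fun _ _ => ⟨w1, w2, w3⟩)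
    (ht := fun a a' k y => ht a a' y k) (T' := Wz S f) (j := Subtype.val) .subtypeVal
    (fun z => ?_) fun _ => w1, w2, w3, w4, fun x => x.2⟩
  rw [w4]
  refine (Set.ext_iff.1 Subtype.range_coe z).trans ⟨fun k a ha => ?_, fun k => ?_⟩
  · change On S _ _ (f₀ (F.φ a z.1.1))
    exact (show f z.1.1 = f₀ _ from hf a z.1.1 ha) ▸ k
  · obtain ⟨a, ha⟩ := c.cov (F.q z.1.1)
    change On S _ _ (f z.1.1)
    exact (hf a z.1.1 ha : f z.1.1 = f₀ _).symm ▸ k a ha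

variable (F) in
/-- the hyperplane class -/
theorem mg_tau (S : PS 1) {k₀ k} (h : ∀ i, Alg M.cp (cP S) (k₀ i)) (hi : F.Inv k₀ k)
    (hk : Smo D 1 k) : MG (wH W F) (-2) (P275S.pb (tm hk) (c1 (X := TopCat.of S.P.X) (tau S))) := by
  obtain ⟨y, hy, h0, e⟩ := cl_surj (d := 1) (c1_mem (X := TopCat.of S.P.X) (tau S))
  have h1 := del_top (d := 1) hy
  rw [← e]
  exact mg_hyp W F S.P (ps_kah S) h hi (s := 2) even_two hy h1
    (by rw [dlb, LinearMap.sub_apply, h0, h1, sub_zero]) h0 hk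

/-- the product with the projective line -/
theorem pb_prod (S : PS 1) (T : Mn D) {hρ : Smo (D + 1) D (Prod.fst : T.X × S.P.X → T.X)}
    (a : Act (univ : Set T.X) univ (pb hρ)) (hk : Smo (D + 1) 1 (Prod.snd : T.X × S.P.X → S.P.X)) :
    Pb (P275S.pb (tm hρ)) (gys a) (P275S.pb (tm hk) (c1 (X := TopCat.of S.P.X) (tau S))) 1 := by
  have n1 := nice (d := D + 1) (M := T.X × S.P.X)
  have n2 := nice (d := D) (M := T.X)
  have h1 := P275S.pb_mem (tm hk) (c1_mem (X := TopCat.of S.P.X) (tau S))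
  have h2 : HolM D (D + 1) fun x : T.X => (x, S.pt ![1, 0]) := holM_mk holM_id (holM_const _)
  have a2 := act_univ (smo_of_hol h2) (cemb_mk _).isProperMap
  refine ⟨gys_mul a, ce_even (D + 1) h1 even_two, fun β => ?_, fun i hi => ?_,
    ce_even D (n := 0) (gys_mem a (P275S.pow_mem_Hd h1 1) (by omega)) Even.zero,
    gys a2 1, ?_⟩
  · obtain ⟨x, hx⟩ := (P275S.lh_pf P275S.lhp one_ne_zero (tm hρ)
      isProperMap_fst_of_compactSpace _ (pfib S)).2 β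
    refine ⟨fun i => if i = 0 then x 0 else x 1, ?_⟩
    rw [← hx, ← c1_pb, Finset.sum_range_succ, Finset.sum_range_one]
    exact Fin.sum_univ_two _
  · obtain rfl : i = 0 := by omega
    exact P275S.eq_zero_of_neg (n := -2) (by omega)
      (gys_mem a (m := 0) (by rw [pow_zero]; exact P275S.one_mem_Hd) (by omega))
  · have a3 := act_univ (d := D) (M := T.X) P281Z.Hg.Pb1H.smo_id isProperMap_id
    exact (gys_comp a2 a a3 1).symm.trans (gys_id a3 (fun _ => rfl) 1)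

/-- the cohomological part -/
theorem gy_man (S : PS 1) {E : ℕ} {Y : Mn D} {Z : Mn E} {X : Mn D'} {s : Y.X → X.X}
    {e : Z.X × S.P.X → X.X} {q : X.X → Y.X} {i : Z.X → Y.X} {κ : X.X → S.P.X} {hs : Smo D D' s}
    {he : Smo (E + 1) D' e} (hq : Smo D' D q) (hi : Smo E D i) (hκ : Smo D' 1 κ)
    {hρ : Smo (E + 1) E (Prod.fst : Z.X × S.P.X → Z.X)}
    (hk : Smo (E + 1) 1 (Prod.snd : Z.X × S.P.X → S.P.X)) (cs : IsClosedEmbedding s)
    (ce : IsClosedEmbedding e) (as : Act (univ : Set X.X) univ (pb hs))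
    (ae : Act (univ : Set X.X) univ (pb he)) (aρ : Act (univ : Set Z.X) univ (pb hρ))
    (d1 : D' = D + 1) (d2 : D' = E + 1 + 1) (qs : ∀ y, q (s y) = y) (qe : ∀ z, q (e z) = i z.1)
    (κe : ∀ z, κ (e z) = z.2) {σ : ((range s)ᶜ : Set X.X) → Cm 2} (σ1 : Continuous σ)
    (σ2 : ∀ x, σ x ≠ 0) (σ3 : ∀ x, S.pt (σ x) = κ x) {τ : ((range e)ᶜ : Set X.X) → Cm 2}
    (τ1 : Continuous τ) (τ2 : ∀ x, τ x ≠ 0) (τ3 : ∀ x, S.pt (τ x) = κ x) {w z t v} (hw : IsGr w)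
    (hz : IsGr z) (ht : IsGr t) (hv : IsGr v) (g1 : Grd w v 0 (gys as)) (g2 : Grd t v 0 (gys ae))
    (g3 : Grd t z 0 (gys aρ))
    (g4 : MG t (-2) (P275S.pb (tm hk) (c1 (X := TopCat.of S.P.X) (tau S))))
    (g5 : ∀ a ∈ Hd ℂ (TopCat.of Y.X) 0, MG w 0 a) (g6 : ∀ a ∈ Hd ℂ (TopCat.of Z.X) 0, MG z 0 a) :
    Grd w z (-2) (P275S.pb (tm hi)).toLinearMap := by
  have ξ2 := P275S.pb_mem (tm hκ) (c1_mem (X := TopCat.of S.P.X) (tau S))
  have ξE := P275S.pb_mem (tm hk) (c1_mem (X := TopCat.of S.P.X) (tau S))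
  obtain ⟨m, m0, m1⟩ := ex_gys cs as d1 ξ2 (pb_tau S _ ⟨_, hκ.cont⟩ σ1 σ2 σ3)
  obtain ⟨l, l0, l1⟩ := ex_gys ce ae d2 ξ2 (pb_tau S _ ⟨_, hκ.cont⟩ τ1 τ2 τ3)
  have hE := pb_prod S Z aρ hk
  obtain ⟨x, hx⟩ := hE.span l
  rw [Finset.sum_range_succ, Finset.sum_range_one, pow_zero, mul_one, pow_one] at hx
  have l2 : l = P275S.pb (tm hρ) (P275S.KG.pr 0 (x 0)) := by
    rw [← P275S.KG.pr_of_mem l0, hx]
    exact (map_add _ _ _).trans (by rw [pr_mul ξE, add_zero, P275S.pb_pr])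
  have x0 : P275S.KG.pr 0 (x 0) ∈ Hd ℂ (TopCat.of Z.X) 0 := P275S.KG.pr_mem_deg 0 _
  refine gy (q := P275S.pb (tm hq)) (ρg := gys aρ) (gys_mul as) (gys_mul ae) (fun a => ?_) (fun a => ?_) ?_
    (m1.symm.trans (l1.trans (congrArg _ l2))) (pb_gys ce ae) (ce_even D m0 Even.zero)
    (ce_even E x0 Even.zero) hw hz ht hv g1 g2 (grd_congr (hE.grd hz ht g3 g4
      (g6 _ (gys_mem aρ (P275S.pow_mem_Hd ξE 1) (by omega)))) (by simp) fun _ => rfl)
    (g5 _ m0) (g6 _ x0)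
  · rw [P275S.pb_comp, show tm hs ≫ tm hq = 𝟙 _ from TopCat.ext qs, P275S.pb_id]
  · rw [P275S.pb_comp, P275S.pb_comp, show tm he ≫ tm hq = tm hρ ≫ tm hi from TopCat.ext qe]
  · rwa [← m1, P275S.pb_comp, show tm he ≫ tm hκ = tm hk from TopCat.ext κe]

/-- **GYP** -/
theorem gyp {M : Vr (d + 1)} {Z : Vr d} {E : ℕ} (F : Fl c M D) (G : Fl c Z E)
    (hc : ∀ i, IsPreconnected (c.V i)) {e i} (h : Hm0 G F (fun _ => e) i) {f₀ : M.X → ℂ} {f}
    (hf₀ : Reg M.cp f₀) (hf : F.Inv (fun _ => f₀) f) (hr : range e = {m | f₀ m = 0})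
    (he : IsClosedEmbedding e) (hs : ∀ m, f₀ m = 0 → Sbm (d + 1) 1 (fun m (_ : Fin 1) => f₀ m) m)
    (hi : Smo E D i) : Grd (wH W F) (wH W G) (-2) (P275S.pb (tm hi)).toLinearMap := by
  obtain ⟨S⟩ := P281Z.Pb.psex 1
  obtain ⟨V, w, FW, j, hW, w1, w2, w3, w4⟩ := ex_FW S F hf₀ hf hs
  have ji := hW.inj injective_id fun _ => w1.injective
  have f0 : ∀ z, f (i z) = 0 := fun z =>
    let ⟨a, ha⟩ := c.cov (G.q z)
    (h.inv hf a z ha).trans (hr.le (mem_range_self _))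
  have f1 : ∀ x, f x = 0 → x ∈ range i := fun x hx =>
    let ⟨a, ha⟩ := c.cov (F.q x)
    h.mem_range.2 ⟨a, _, ha, rfl, hr.ge ((hf a x ha).symm.trans hx)⟩
  obtain ⟨s₀, s, s1, s2, s3⟩ := hm_lift (F'' := F) (g := fun m => ((m, 0), S.pt ![1, 0]))
    (t := fun x => ((x, 0), S.pt ![1, 0])) hW w1 w2 ⟨holM_id, fun _ _ h => h, fun _ =>
      ((Alg.id _).pair (.const _ _ _)).pair (.const _ _ _), fun _ => rfl, fun _ _ _ => rfl⟩
    (by rintro _ ⟨m, rfl⟩; exact w3.ge (on_e0 _)) ((cemb_mk _).comp (cemb_mk _))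
  have hE0 : Hm0 (G.prodV (Pv S)) ((F.prodV (Av 1)).prodV (Pv S))
      (fun _ (z : Z.X × S.P.X) => (((e z.1, 0), z.2) : (M.X × Cm 1) × S.P.X))
      fun z : G.T.X × S.P.X => (((i z.1, 0), z.2) : (F.T.X × Cm 1) × S.P.X) :=
    ⟨holM_id, fun _ _ h => h, fun a => (((h.alg a).comp .fst).pair (.const _ _ _)).pair .snd,
      fun z => h.qt z.1, fun a z hz => Prod.ext (Prod.ext (h.φt a z.1 hz) rfl) rfl⟩
  obtain ⟨e₀, e', e1, e2, e3⟩ := hm_lift hW w1 w2 hE0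
    (by
      rintro _ ⟨m, rfl⟩
      refine w3.ge (?_ : On S _ 0 (f₀ (e m.1)))
      exact (hr.le (mem_range_self m.1) : f₀ (e m.1) = 0).symm ▸ on_zero _)
    (((cemb_mk _).comp he).prodMap .id)
  have cs := s1.cemb .id fun _ => s2
  have ce := e1.cemb .id fun _ => e2
  have as := act_univ s1.smo cs.isProperMap
  have ae := act_univ e1.smo ce.isProperMap
  have hρ := G.hm_fst (Pv S)
  have aρ := act_univ hρ.smo (hρ.proper isProperMap_id fun _ => isProperMap_fst_of_compactSpace)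
  have hκ := hW.inv (Fl.inv_snd _ (Pv S))
  have κa : ∀ a : c.ι, Alg V.cp (cP S) fun y => (w y).2 := fun a => (alg_p S).comp (hW.alg a)
  have κs : Smo _ 1 fun x => (j x).2 := smo_of_hol (hκ.hol fun a => (κa a).hol)
  have ks : Smo (E + 1) 1 (Prod.snd : (G.prodV (Pv S)).T.X → S.P.X) :=
    smo_of_hol ((G.inv_snd (Pv S)).hol fun _ => hol_snd)
  have qs := (((F.hm_fst (Av 1)).comp (Fl.hm_fst _ (Pv S))).comp hW).smo
  have jc := hW.hol.cont
  have k1 : ∀ x : ((range s)ᶜ : Set FW.T.X), (j x).2 ∉ hyp S 1 := fun x hx => x.2 ⟨(j x).1.1, ji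
    ((s3 _).trans (Prod.ext (Prod.ext rfl (funext fun l => by
      rw [Subsingleton.elim l 0]; exact (on_hyp (w4 x) hx).1.symm)) (on_hyp (w4 x) hx).2))⟩
  have k2 : ∀ x : ((range e')ᶜ : Set FW.T.X), (![f (j x).1.1, (j x).1.2 0] : Cm 2) ≠ 0 :=
    fun x hx => by
      obtain ⟨z, hz⟩ := f1 _ (congrFun hx 0)
      exact x.2 ⟨(z, (j x).2), ji ((e3 _).trans (Prod.ext (Prod.ext hz (funext fun l => by
        rw [Subsingleton.elim l 0]; exact (congrFun hx 1).symm)) rfl))⟩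
  have k3 := jc.comp (continuous_subtype_val (p := (· ∈ (range e')ᶜ)))
  exact gy_man S qs hi κs ks cs ce as ae aρ (by rw [F.dim]; rfl) (by rw [G.dim]; rfl)
    (fun x => congrArg (·.1.1) (s3 x)) (fun x => congrArg (·.1.1) (e3 x))
    (fun x => congrArg (·.2) (e3 x)) (σ := fun x => rat S 1 (j x.1).2) (continuous_pi fun l =>
      (cont_rat S 1 l).comp_continuous (κs.cont.comp continuous_subtype_val) k1)
    (fun x => (pt_rat (k1 x)).1) (fun x => (pt_rat (k1 x)).2)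
    (τ := fun x => ![f (j x.1).1.1, (j x.1).1.2 0]) (continuous_pi (Fin.forall_fin_two.2
      ⟨(hf.cont fun _ => continuous_iff_continuousAt.2 fun x => AnV.cont (F := f₀) (hf₀.hol x)).comp
        k3.fst.fst, (continuous_apply 0).comp k3.fst.snd⟩)) k2 (fun x => on_ne (w4 x) (k2 x))
    (gr_wH W F) (gr_wH W G) (gr_wH W (G.prodV (Pv S))) (gr_wH W FW)
    (grd_gys W s1 isProperMap_id (fun _ => s2.isProperMap) as)
    (grd_gys W e1 isProperMap_id (fun _ => e2.isProperMap) ae)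
    (grd_gys W hρ isProperMap_id (fun _ => isProperMap_fst_of_compactSpace) aρ)
    (mg_tau W _ S (fun _ => .snd) (G.inv_snd (Pv S)) ks) (fun _ => mg_zero W F hc)
    fun _ => mg_zero W G hc

end Vale.Agent.P275TG
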